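import Mathlib

/-!
# Polya-Vinogradov for characters (copy of P016.Bdl.B1 / P007.S11.PV137, self-contained)
-/

set_option linter.all false

open Finset
open scoped ComplexConjugate

namespace P004E.H147.PV


open Finset Complex

/-- Additive character `k ↦ exp(2πik/L)`. -/
noncomputable def eL (L : ℕ) (k : ℤ) : ℂ := Complex.exp (2 * Real.pi * Complex.I * ((k : ℂ) / (L : ℂ)))

lemma eL_add (L : ℕ) (j k : ℤ) : eL L (j + k) = eL L j * eL L k := by
  unfold eL
  rw [← Complex.exp_add]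
  congr 1
  push_cast
  ring

lemma eL_zero (L : ℕ) : eL L 0 = 1 := by simp [eL]

lemma eL_norm (L : ℕ) (k : ℤ) : ‖eL L k‖ = 1 := by
  unfold eL
  have : (2 * Real.pi * Complex.I * ((k : ℂ) / (L : ℂ))) = ((2 * Real.pi * ((k : ℝ) / (L : ℝ)) : ℝ) : ℂ) * Complex.I := by
    push_cast; ring
  rw [this, Complex.norm_exp_ofReal_mul_I]

lemma eL_mul_self (L : ℕ) (hL : 0 < L) (k : ℤ) : eL L (L * k) = 1 := by
  unfold eL
  have hL' : (L : ℂ) ≠ 0 := by exact_mod_cast hL.ne'
  have : (2 * Real.pi * Complex.I * (((L * k : ℤ) : ℂ) / (L : ℂ))) = (k : ℂ) * (2 * Real.pi * Complex.I) := by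
    push_cast
    field_simp
  rw [this]
  exact Complex.exp_int_mul_two_pi_mul_I k

lemma eL_eq_of_dvd (L : ℕ) (hL : 0 < L) {j k : ℤ} (h : (L : ℤ) ∣ k - j) : eL L j = eL L k := by
  obtain ⟨m, hm⟩ := h
  have : k = j + L * m := by linarith only [hm]
  rw [this, eL_add, eL_mul_self L hL, mul_one]

lemma eL_conj (L : ℕ) (k : ℤ) : (starRingEnd ℂ) (eL L k) = eL L (-k) := by
  unfold eL
  rw [← Complex.exp_conj]
  congr 1
  simp only [map_mul, map_div₀, Complex.conj_I, Complex.conj_ofReal, Complex.conj_natCast,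
    map_ofNat, map_intCast, Int.cast_neg]
  ring

lemma eL_mul (L : ℕ) (j : ℤ) (n : ℕ) : eL L (j * n) = eL L j ^ n := by
  induction n with
  | zero => simp [eL_zero]
  | succ n ih =>
    rw [pow_succ, ← ih, ← eL_add]
    congr 1
    push_cast
    ring

/-- `|1 - e(a/L)| ≥ 4 min(a, L-a)/L`. -/
lemma one_sub_eL_ge (L : ℕ) (a : ℕ) (ha : 1 ≤ a) (haL : a < L) :
    4 * (min (a : ℝ) ((L : ℝ) - a)) / L ≤ ‖1 - eL L (-(a : ℤ))‖ := by
  have hL : (0 : ℝ) < L := by
    have : 0 < L := by omega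
    exact_mod_cast this
  have har : (1 : ℝ) ≤ a := by exact_mod_cast ha
  have haLr : (a : ℝ) < L := by exact_mod_cast haL
  have h1 : ‖1 - eL L (-(a : ℤ))‖ = 2 * |Real.sin (Real.pi * (a / L))| := by
    have : eL L (-(a : ℤ)) = Complex.exp (((-(2 * (Real.pi * (a / L)))) : ℝ) * Complex.I) := by
      unfold eL
      congr 1
      push_cast
      ring
    rw [this, norm_sub_rev]
    have h2 := Complex.norm_exp_I_mul_ofReal_sub_one (-(2 * (Real.pi * (a / L))))
    rw [mul_comm (((-(2 * (Real.pi * (a / L)))) : ℝ) : ℂ) Complex.I, h2]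
    rw [show (-(2 * (Real.pi * ((a : ℝ) / L)))) / 2 = -(Real.pi * (a / L)) by ring, Real.sin_neg,
      mul_neg, norm_neg, norm_mul, Real.norm_eq_abs, Real.norm_eq_abs, abs_two]
  rw [h1]
  have hθ0 : 0 ≤ Real.pi * ((a : ℝ) / L) := by positivity
  have hθ1 : Real.pi * ((a : ℝ) / L) ≤ Real.pi := by
    have : (a : ℝ) / L ≤ 1 := (div_le_one hL).2 haLr.le
    nlinarith only [this, Real.pi_pos]
  rw [abs_of_nonneg (Real.sin_nonneg_of_nonneg_of_le_pi hθ0 hθ1)]
  rcases le_total ((a : ℝ)) ((L : ℝ) - a) with h | h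
  · rw [min_eq_left h]
    have h2 : Real.pi * ((a : ℝ) / L) ≤ Real.pi / 2 := by
      have : (a : ℝ) / L ≤ 1 / 2 := by
        rw [div_le_div_iff₀ hL (by norm_num)]
        linarith only [h]
      nlinarith only [this, Real.pi_pos]
    have h3 := Real.mul_le_sin hθ0 h2
    have h4 : 2 / Real.pi * (Real.pi * ((a : ℝ) / L)) = 2 * (a / L) := by
      field_simp
    rw [h4] at h3
    have : 4 * (a : ℝ) / L = 2 * (2 * (a / L)) := by ring
    rw [this]
    linarith only [h3]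
  · rw [min_eq_right h]
    have e1 : Real.sin (Real.pi * ((a : ℝ) / L)) = Real.sin (Real.pi * (((L : ℝ) - a) / L)) := by
      rw [← Real.sin_pi_sub]
      congr 1
      field_simp
    have h0 : 0 ≤ Real.pi * (((L : ℝ) - a) / L) := by
      have : (0 : ℝ) ≤ (L : ℝ) - a := by linarith only [haLr]
      positivity
    have h2 : Real.pi * (((L : ℝ) - a) / L) ≤ Real.pi / 2 := by
      have : ((L : ℝ) - a) / L ≤ 1 / 2 := by
        rw [div_le_div_iff₀ hL (by norm_num)]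
        linarith only [h]
      nlinarith only [this, Real.pi_pos]
    have h3 := Real.mul_le_sin h0 h2
    have h4 : 2 / Real.pi * (Real.pi * (((L : ℝ) - a) / L)) = 2 * (((L : ℝ) - a) / L) := by
      (clear * - hL; field_simp)
    rw [h4] at h3
    rw [e1]
    have : 4 * ((L : ℝ) - a) / L = 2 * (2 * (((L : ℝ) - a) / L)) := by ring
    rw [this]
    linarith only [h3]

/-- Geometric sum bound. -/
lemma geom_eL_le (L : ℕ) (a : ℕ) (ha : 1 ≤ a) (haL : a < L) (N : ℕ) :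
    ‖∑ n ∈ range N, eL L (-(a : ℤ) * n)‖ ≤ (L : ℝ) / 2 * ((a : ℝ)⁻¹ + ((L : ℝ) - a)⁻¹) := by
  have hL : (0 : ℝ) < L := by
    have : 0 < L := by omega
    exact_mod_cast this
  have har : (1 : ℝ) ≤ a := by exact_mod_cast ha
  have haLr : (a : ℝ) < L := by exact_mod_cast haL
  have h1 := one_sub_eL_ge L a ha haL
  have hmin : 0 < min (a : ℝ) ((L : ℝ) - a) := lt_min (by linarith only [har]) (by linarith only [haLr])
  have hpos : 0 < ‖1 - eL L (-(a : ℤ))‖ := lt_of_lt_of_le (by positivity) h1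
  have hne : eL L (-(a : ℤ)) ≠ 1 := by
    intro h
    rw [h, sub_self, norm_zero] at hpos
    exact lt_irrefl _ hpos
  have h2 : ∑ n ∈ range N, eL L (-(a : ℤ) * n) = (eL L (-(a : ℤ)) ^ N - 1) / (eL L (-(a : ℤ)) - 1) := by
    rw [← geom_sum_eq hne]
    exact Finset.sum_congr rfl fun n _ => eL_mul L _ n
  rw [h2, norm_div, norm_sub_rev (eL L (-(a : ℤ))) 1]
  have h3 : ‖eL L (-(a : ℤ)) ^ N - 1‖ ≤ 2 := by
    calc ‖eL L (-(a : ℤ)) ^ N - 1‖ ≤ ‖eL L (-(a : ℤ)) ^ N‖ + ‖(1 : ℂ)‖ := norm_sub_le _ _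
      _ = 2 := by rw [norm_pow, eL_norm]; norm_num
  calc ‖eL L (-(a : ℤ)) ^ N - 1‖ / ‖1 - eL L (-(a : ℤ))‖ ≤ 2 / (4 * (min (a : ℝ) ((L : ℝ) - a)) / L) :=
        div_le_div₀ (by norm_num) h3 (by positivity) h1
    _ = (L : ℝ) / 2 * (min (a : ℝ) ((L : ℝ) - a))⁻¹ := by field_simp; ring
    _ ≤ (L : ℝ) / 2 * ((a : ℝ)⁻¹ + ((L : ℝ) - a)⁻¹) := by
        refine mul_le_mul_of_nonneg_left ?_ (by positivity)
        have p1 : 0 ≤ (a : ℝ)⁻¹ := by positivity
        have p2 : 0 ≤ ((L : ℝ) - a)⁻¹ := by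
          have : (0 : ℝ) ≤ (L : ℝ) - a := by linarith only [haLr]
          positivity
        rcases le_total ((a : ℝ)) ((L : ℝ) - a) with h | h
        · rw [min_eq_left h]; linarith only [p2]
        · rw [min_eq_right h]; linarith only [p1]

/-- permutation of residues by multiplication by a unit -/
lemma sum_unit_mul (G : ℕ → ℂ) (L : ℕ) (hL : 0 < L) (hper : ∀ m n, m ≡ n [MOD L] → G m = G n)
    (u : ℕ) (hco : Nat.Coprime u L) : ∑ n ∈ range L, G (u * n) = ∑ n ∈ range L, G n := by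
  have hinj : Set.InjOn (fun n => (u * n) % L) (range L : Set ℕ) := by
    intro a ha b hb hab
    simp only [coe_range, Set.mem_Iio] at ha hb
    have : u * a ≡ u * b [MOD L] := hab
    have := Nat.ModEq.cancel_left_of_coprime (by rwa [Nat.gcd_comm]) this
    exact Nat.ModEq.eq_of_lt_of_lt this ha hb
  have hmaps : Set.MapsTo (fun n => (u * n) % L) (range L : Set ℕ) (range L : Set ℕ) := by
    intro n _
    simpa using Nat.mod_lt _ hL
  refine Finset.sum_nbij (fun n => (u * n) % L) (fun n _ => by simpa using Nat.mod_lt _ hL) hinj ?_ ?_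
  · exact Finset.surjOn_of_injOn_of_card_le _ hmaps hinj le_rfl
  · intro n _
    exact hper _ _ (Nat.mod_modEq _ _).symm

/-- finite Fourier coefficient -/
noncomputable def fc (F : ℕ → ℂ) (L a : ℕ) : ℂ := ∑ n ∈ range L, F n * eL L ((a : ℤ) * n)

lemma eL_modEq (L : ℕ) (hL : 0 < L) {m n : ℕ} (h : m ≡ n [MOD L]) : eL L (m : ℤ) = eL L (n : ℤ) :=
  eL_eq_of_dvd L hL ((Nat.modEq_iff_dvd).1 h)

lemma eL_modEq' (L : ℕ) (hL : 0 < L) {a m n : ℕ} (h : m ≡ n [MOD L]) :
    eL L ((a : ℤ) * m) = eL L ((a : ℤ) * n) := by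
  have := eL_modEq L hL (h.mul_left a)
  push_cast at this
  exact this

section

variable (F : ℕ → ℂ) (L : ℕ) (hL : 1 < L) (hmul : ∀ m n, F (m * n) = F m * F n)
  (hone : F 1 = 1)
  (hper : ∀ m n, m ≡ n [MOD L] → F m = F n)
  (hprim : ∀ r : ℕ, r.Prime → r ∣ L → ∃ u : ℕ, Nat.Coprime u L ∧ u ≡ 1 [MOD L / r] ∧ F u ≠ 1)

include hL hmul hper hprim in
lemma fc_eq_zero (a : ℕ) (ha : ¬ Nat.Coprime a L) : fc F L a = 0 := by
  have hL0 : 0 < L := by omega
  obtain ⟨r, hr, hra, hrL⟩ := Nat.Prime.not_coprime_iff_dvd.1 ha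
  obtain ⟨u, huc, hu1, huF⟩ := hprim r hr hrL
  have h1 := sum_unit_mul (fun n => F n * eL L ((a : ℤ) * n)) L hL0
    (fun m n h => by simp only [hper m n h, eL_modEq' L hL0 (a := a) h]) u huc
  have h2 : ∀ n ∈ range L, F (u * n) * eL L ((a : ℤ) * ((u * n : ℕ) : ℤ)) =
      F u * (F n * eL L ((a : ℤ) * n)) := by
    intro n _
    rw [hmul]
    have h3 : a * (u * n) ≡ a * n [MOD L] := by
      have h4 : a * u ≡ a * 1 [MOD L] := by
        obtain ⟨a', rfl⟩ := hra
        obtain ⟨L', rfl⟩ := hrL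
        rw [Nat.mul_div_cancel_left L' hr.pos] at hu1
        have h5 := hu1.mul_left a'
        have h6 := h5.mul_left' r
        calc r * a' * u = r * (a' * u) := by ring
          _ ≡ r * (a' * 1) [MOD r * L'] := h6
          _ = r * a' * 1 := by ring
      calc a * (u * n) = (a * u) * n := by ring
        _ ≡ (a * 1) * n [MOD L] := h4.mul_right n
        _ = a * n := by ring
    have h5 := eL_modEq L hL0 h3
    have h6 : (a : ℤ) * ((u * n : ℕ) : ℤ) = ((a * (u * n) : ℕ) : ℤ) := by push_cast; ring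
    have h7 : (a : ℤ) * (n : ℤ) = ((a * n : ℕ) : ℤ) := by push_cast; ring
    rw [h6, h5, h7]
    ring
  have h3 : F u * fc F L a = fc F L a := by
    rw [fc, Finset.mul_sum, ← Finset.sum_congr rfl h2]
    exact h1
  have h4 : (F u - 1) * fc F L a = 0 := by rw [sub_mul, h3, one_mul, sub_self]
  rcases mul_eq_zero.1 h4 with h | h
  · exact absurd (sub_eq_zero.1 h) huF
  · exact h

include hL hmul hone hper in
lemma F_norm_unit (a : ℕ) (ha : Nat.Coprime a L) : ‖F a‖ = 1 := by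
  have h1 : F (a ^ Nat.totient L) = 1 := by
    rw [hper _ _ (Nat.ModEq.pow_totient ha), hone]
  have h2 : ∀ k : ℕ, F (a ^ k) = F a ^ k := by
    intro k
    induction k with
    | zero => simp [hone]
    | succ k ih => rw [pow_succ, hmul, ih, pow_succ]
  rw [h2] at h1
  exact Complex.norm_eq_one_of_pow_eq_one h1 (Nat.totient_pos.2 (by omega)).ne'

include hL hmul hone hper in
lemma fc_norm_unit (a : ℕ) (ha : Nat.Coprime a L) : ‖fc F L a‖ = ‖fc F L 1‖ := by
  have hL0 : 0 < L := by omega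
  have h1 := sum_unit_mul (fun n => F n * eL L (((1 : ℕ) : ℤ) * n)) L hL0
    (fun m n h => by simp only [hper m n h, eL_modEq' L hL0 (a := 1) h]) a ha
  have h2 : ∀ n ∈ range L, F (a * n) * eL L (((1 : ℕ) : ℤ) * ((a * n : ℕ) : ℤ)) =
      F a * (F n * eL L ((a : ℤ) * n)) := by
    intro n _
    rw [hmul]
    have : ((1 : ℕ) : ℤ) * ((a * n : ℕ) : ℤ) = (a : ℤ) * n := by push_cast; ring
    rw [this]
    ring
  have h3 : F a * fc F L a = fc F L 1 := by
    rw [fc, Finset.mul_sum, ← Finset.sum_congr rfl h2]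
    exact h1
  rw [← h3, norm_mul, F_norm_unit F L hL hmul hone hper a ha, one_mul]

/-- orthogonality of additive characters -/
lemma sum_eL (L : ℕ) (hL : 0 < L) (k : ℤ) :
    ∑ a ∈ range L, eL L ((a : ℤ) * k) = if (L : ℤ) ∣ k then (L : ℂ) else 0 := by
  have h1 : ∀ a ∈ range L, eL L ((a : ℤ) * k) = eL L k ^ a := by
    intro a _
    rw [mul_comm, eL_mul]
  rw [Finset.sum_congr rfl h1]
  split_ifs with h
  · have : eL L k = 1 := by
      rw [← eL_zero L]
      exact (eL_eq_of_dvd L hL (by simpa only [sub_zero] using h)).symm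
    simp [this]
  · have hne : eL L k ≠ 1 := by
      intro h2
      apply h
      unfold eL at h2
      rw [Complex.exp_eq_one_iff] at h2
      obtain ⟨m, hm⟩ := h2
      refine ⟨m, ?_⟩
      have hL' : (L : ℂ) ≠ 0 := by exact_mod_cast hL.ne'
      have h3 : (k : ℂ) / (L : ℂ) = m := by
        have : (2 * Real.pi * Complex.I : ℂ) ≠ 0 := Complex.two_pi_I_ne_zero
        have h4 : (2 * Real.pi * Complex.I : ℂ) * ((k : ℂ) / (L : ℂ)) = (2 * Real.pi * Complex.I) * m := by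
          rw [hm]; ring
        exact mul_left_cancel₀ this h4
      rw [div_eq_iff hL'] at h3
      have h5 : ((k : ℤ) : ℂ) = ((L * m : ℤ) : ℂ) := by rw [h3]; push_cast; ring
      exact_mod_cast h5
    rw [geom_sum_eq hne, ← eL_mul, mul_comm, eL_mul_self L hL, sub_self, zero_div]

/-- Parseval -/
lemma parseval (F : ℕ → ℂ) (L : ℕ) (hL : 0 < L) :
    ∑ a ∈ range L, ‖fc F L a‖ ^ 2 = L * ∑ n ∈ range L, ‖F n‖ ^ 2 := by
  have h1 : ((∑ a ∈ range L, ‖fc F L a‖ ^ 2 : ℝ) : ℂ) = ((L * ∑ n ∈ range L, ‖F n‖ ^ 2 : ℝ) : ℂ) := by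
    push_cast
    have h2 : ∀ a ∈ range L, ((‖fc F L a‖ : ℂ)) ^ 2 =
        ∑ m ∈ range L, ∑ n ∈ range L, (F m * (starRingEnd ℂ) (F n)) * eL L ((a : ℤ) * ((m : ℤ) - n)) := by
      intro a _
      rw [← Complex.mul_conj', fc, map_sum, Finset.sum_mul_sum]
      refine Finset.sum_congr rfl fun m _ => Finset.sum_congr rfl fun n _ => ?_
      rw [map_mul, eL_conj]
      have : (a : ℤ) * ((m : ℤ) - n) = (a : ℤ) * m + -((a : ℤ) * n) := by ring
      rw [this, eL_add]
      ring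
    rw [Finset.sum_congr rfl h2, Finset.sum_comm]
    have h3 : ∀ m ∈ range L, ∑ a ∈ range L, ∑ n ∈ range L,
        (F m * (starRingEnd ℂ) (F n)) * eL L ((a : ℤ) * ((m : ℤ) - n)) = (L : ℂ) * ‖F m‖ ^ 2 := by
      intro m hm
      rw [Finset.sum_comm]
      have h4 : ∀ n ∈ range L, ∑ a ∈ range L,
          (F m * (starRingEnd ℂ) (F n)) * eL L ((a : ℤ) * ((m : ℤ) - n)) =
          if m = n then (F m * (starRingEnd ℂ) (F n)) * (L : ℂ) else 0 := by
        intro n hn
        rw [← Finset.mul_sum, sum_eL L hL]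
        rw [mem_range] at hm hn
        by_cases hmn : m = n
        · simp only [hmn, sub_self, dvd_zero, ↓reduceIte]
        · have : ¬ (L : ℤ) ∣ (m : ℤ) - n := by
            intro hd
            apply hmn
            have := Int.eq_zero_of_abs_lt_dvd hd (by rw [abs_lt]; omega)
            omega
          simp only [this, ↓reduceIte, mul_zero, hmn]
      rw [Finset.sum_congr rfl h4, Finset.sum_ite_eq, if_pos hm, Complex.mul_conj']
      ring
    rw [Finset.sum_congr rfl h3, Finset.mul_sum]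
  exact_mod_cast h1

include hL hmul hone hper hprim in
/-- Gauss sum bound -/
lemma fc_norm_le (hF0 : ∀ n, ¬ Nat.Coprime n L → F n = 0) (a : ℕ) :
    ‖fc F L a‖ ≤ Real.sqrt L := by
  classical
  have hL0 : 0 < L := by omega
  have hp := parseval F L hL0
  have h1 : ∑ a ∈ range L, ‖fc F L a‖ ^ 2 = (Nat.totient L : ℝ) * ‖fc F L 1‖ ^ 2 := by
    have e1 : ∀ a ∈ range L, ‖fc F L a‖ ^ 2 = if L.Coprime a then ‖fc F L 1‖ ^ 2 else 0 := by
      intro a _
      split_ifs with h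
      · rw [fc_norm_unit F L hL hmul hone hper a h.symm]
      · rw [fc_eq_zero F L hL hmul hper hprim a (fun h' => h h'.symm)]; simp
    rw [Finset.sum_congr rfl e1, ← Finset.sum_filter, Finset.sum_const, nsmul_eq_mul,
      Nat.totient_eq_card_coprime]
  have h2 : ∑ n ∈ range L, ‖F n‖ ^ 2 = (Nat.totient L : ℝ) := by
    have e1 : ∀ n ∈ range L, ‖F n‖ ^ 2 = if L.Coprime n then (1 : ℝ) else 0 := by
      intro n _
      split_ifs with h
      · rw [F_norm_unit F L hL hmul hone hper n h.symm]; norm_num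
      · rw [hF0 n (fun h' => h h'.symm)]; simp
    rw [Finset.sum_congr rfl e1, ← Finset.sum_filter, Finset.sum_const, nsmul_eq_mul,
      Nat.totient_eq_card_coprime, mul_one]
  rw [h1, h2] at hp
  have hφ : (0 : ℝ) < Nat.totient L := by exact_mod_cast Nat.totient_pos.2 hL0
  have h3 : ‖fc F L 1‖ ^ 2 = L := by
    have : (Nat.totient L : ℝ) * ‖fc F L 1‖ ^ 2 = (Nat.totient L : ℝ) * L := by linarith only [hp]
    exact mul_left_cancel₀ hφ.ne' this
  by_cases ha : Nat.Coprime a L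
  · rw [fc_norm_unit F L hL hmul hone hper a ha]
    exact Real.le_sqrt_of_sq_le h3.le
  · rw [fc_eq_zero F L hL hmul hper hprim a ha, norm_zero]
    exact Real.sqrt_nonneg _

/-- Fourier inversion -/
lemma fc_inv (F : ℕ → ℂ) (L : ℕ) (hL : 0 < L) (hper : ∀ m n, m ≡ n [MOD L] → F m = F n) (n : ℕ) :
    (L : ℂ) * F n = ∑ a ∈ range L, fc F L a * eL L (-(a : ℤ) * n) := by
  have h1 : ∀ a ∈ range L, fc F L a * eL L (-(a : ℤ) * n) =
      ∑ m ∈ range L, F m * eL L ((a : ℤ) * ((m : ℤ) - n)) := by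
    intro a _
    rw [fc, Finset.sum_mul]
    refine Finset.sum_congr rfl fun m _ => ?_
    have : (a : ℤ) * ((m : ℤ) - n) = (a : ℤ) * m + (-(a : ℤ) * n) := by ring
    rw [this, eL_add]
    ring
  rw [Finset.sum_congr rfl h1, Finset.sum_comm]
  have h2 : ∀ m ∈ range L, ∑ a ∈ range L, F m * eL L ((a : ℤ) * ((m : ℤ) - n)) =
      if n % L = m then F m * (L : ℂ) else 0 := by
    intro m hm
    rw [← Finset.mul_sum, sum_eL L hL]
    rw [mem_range] at hm
    have : ((L : ℤ) ∣ (m : ℤ) - n) ↔ n % L = m := by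
      rw [← Nat.modEq_iff_dvd]
      constructor
      · intro h
        have h' : n % L = m % L := h
        rw [h', Nat.mod_eq_of_lt hm]
      · intro h
        have : n ≡ m [MOD L] := by
          unfold Nat.ModEq
          rw [h, Nat.mod_eq_of_lt hm]
        exact this
    simp only [this]
    split_ifs <;> simp
  rw [Finset.sum_congr rfl h2, Finset.sum_ite_eq, if_pos (mem_range.2 (Nat.mod_lt _ hL)),
    hper (n % L) n (Nat.mod_modEq _ _)]
  ring

include hL hmul hone hper hprim in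
/-- Pólya–Vinogradov -/
theorem polya_vinogradov (hF0 : ∀ n, ¬ Nat.Coprime n L → F n = 0) (N : ℕ) :
    ‖∑ n ∈ range N, F n‖ ≤ Real.sqrt L * (1 + Real.log L) := by
  have hL0 : 0 < L := by omega
  have hLr : (0 : ℝ) < L := by exact_mod_cast hL0
  have h1 : (L : ℂ) * ∑ n ∈ range N, F n =
      ∑ a ∈ Ico 1 L, fc F L a * ∑ n ∈ range N, eL L (-(a : ℤ) * n) := by
    rw [Finset.mul_sum]
    have e1 : ∀ n ∈ range N, (L : ℂ) * F n = ∑ a ∈ range L, fc F L a * eL L (-(a : ℤ) * n) :=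
      fun n _ => fc_inv F L hL0 hper n
    rw [Finset.sum_congr rfl e1, Finset.sum_comm]
    have e2 : ∀ a ∈ range L, ∑ n ∈ range N, fc F L a * eL L (-(a : ℤ) * n) =
        fc F L a * ∑ n ∈ range N, eL L (-(a : ℤ) * n) := fun a _ => by rw [Finset.mul_sum]
    rw [Finset.sum_congr rfl e2, Finset.range_eq_Ico, Finset.sum_eq_sum_Ico_succ_bot hL0]
    have e3 : fc F L 0 = 0 := fc_eq_zero F L hL hmul hper hprim 0 (by
      rw [Nat.coprime_zero_left]; omega)
    rw [e3, zero_mul, zero_add]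
  have h2 : (L : ℝ) * ‖∑ n ∈ range N, F n‖ ≤
      ∑ a ∈ Ico 1 L, Real.sqrt L * ((L : ℝ) / 2 * ((a : ℝ)⁻¹ + ((L : ℝ) - a)⁻¹)) := by
    have e1 : (L : ℝ) * ‖∑ n ∈ range N, F n‖ = ‖(L : ℂ) * ∑ n ∈ range N, F n‖ := by
      rw [norm_mul, Complex.norm_natCast]
    rw [e1, h1]
    refine (norm_sum_le _ _).trans (Finset.sum_le_sum fun a ha => ?_)
    rw [mem_Ico] at ha
    rw [norm_mul]
    exact mul_le_mul (fc_norm_le F L hL hmul hone hper hprim hF0 a) (geom_eL_le L a ha.1 ha.2 N)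
      (norm_nonneg _) (Real.sqrt_nonneg _)
  have h3 : ∑ a ∈ Ico 1 L, (a : ℝ)⁻¹ ≤ 1 + Real.log L := by
    have e1 := harmonic_le_one_add_log L
    rw [harmonic_eq_sum_Icc] at e1
    push_cast at e1
    refine le_trans ?_ e1
    refine Finset.sum_le_sum_of_subset_of_nonneg ?_ fun _ _ _ => by (clear * -; positivity)
    intro a ha
    rw [mem_Ico] at ha
    rw [mem_Icc]
    omega
  have h4 : ∑ a ∈ Ico 1 L, ((L : ℝ) - a)⁻¹ = ∑ a ∈ Ico 1 L, (a : ℝ)⁻¹ := by
    refine Finset.sum_nbij' (fun a => L - a) (fun a => L - a) ?_ ?_ ?_ ?_ ?_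
    · intro a ha; rw [mem_Ico] at ha ⊢; omega
    · intro a ha; rw [mem_Ico] at ha ⊢; omega
    · intro a ha; rw [mem_Ico] at ha; omega
    · intro a ha; rw [mem_Ico] at ha; (clear * - ha; omega)
    · intro a ha
      rw [mem_Ico] at ha
      rw [Nat.cast_sub ha.2.le]
  have h5 : ∑ a ∈ Ico 1 L, Real.sqrt L * ((L : ℝ) / 2 * ((a : ℝ)⁻¹ + ((L : ℝ) - a)⁻¹)) ≤
      (L : ℝ) * (Real.sqrt L * (1 + Real.log L)) := by
    rw [← Finset.mul_sum, ← Finset.mul_sum, Finset.sum_add_distrib, h4]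
    have hs := Real.sqrt_nonneg (L : ℝ)
    have e1 : Real.sqrt L * ((L : ℝ) / 2 * (∑ a ∈ Ico 1 L, (a : ℝ)⁻¹ + ∑ a ∈ Ico 1 L, (a : ℝ)⁻¹)) =
        (L : ℝ) * (Real.sqrt L * ∑ a ∈ Ico 1 L, (a : ℝ)⁻¹) := by ring
    rw [e1]
    exact mul_le_mul_of_nonneg_left (mul_le_mul_of_nonneg_left h3 hs) hLr.le
  exact le_of_mul_le_mul_left (h2.trans h5) hLr

end

theorem prim {L : ℕ} (hL : 1 < L) (ψ : DirichletCharacter ℂ L) (hψ : ψ.IsPrimitive) (N : ℕ) :
    ‖∑ n ∈ range N, ψ (n : ZMod L)‖ ≤ Real.sqrt L * (1 + Real.log L) := by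
  haveI : NeZero L := ⟨by omega⟩
  refine polya_vinogradov (fun n => ψ (n : ZMod L)) L hL ?_ ?_ ?_ ?_ ?_ N
  · intro m n
    show ψ ((m * n : ℕ) : ZMod L) = ψ (m : ZMod L) * ψ (n : ZMod L)
    rw [Nat.cast_mul, map_mul]
  · show ψ ((1 : ℕ) : ZMod L) = 1
    rw [Nat.cast_one, map_one]
  · intro m n h
    show ψ (m : ZMod L) = ψ (n : ZMod L)
    rw [(ZMod.natCast_eq_natCast_iff m n L).mpr h]
  · intro r hr hrL
    by_contra hcon
    have hd : L / r ∣ L := Nat.div_dvd_of_dvd hrL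
    have hf : ψ.FactorsThrough (L / r) := by
      rw [DirichletCharacter.factorsThrough_iff_ker_unitsMap hd]
      intro x hx
      rw [MonoidHom.mem_ker] at hx ⊢
      have hxv : (((x : ZMod L).val : ℕ) : ZMod L) = (x : ZMod L) := ZMod.natCast_zmod_val _
      have hco : Nat.Coprime (x : ZMod L).val L := by
        rw [← ZMod.isUnit_iff_coprime, hxv]
        exact x.isUnit
      have hmod : (x : ZMod L).val ≡ 1 [MOD L / r] := by
        rw [← ZMod.natCast_eq_natCast_iff, Nat.cast_one, ZMod.natCast_val]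
        have h1 := congrArg Units.val hx
        rwa [ZMod.unitsMap_val, Units.val_one] at h1
      have h1 : ψ (((x : ZMod L).val : ℕ) : ZMod L) = 1 := by
        by_contra hne
        exact hcon ⟨_, hco, hmod, hne⟩
      rw [hxv] at h1
      rw [Units.ext_iff, MulChar.coe_toUnitHom, Units.val_one]
      exact h1
    have h1 : ψ.conductor ≤ L / r := Nat.sInf_le hf
    have h2 : ψ.conductor = L := hψ
    have h3 := Nat.div_lt_self (show 0 < L by omega) hr.one_lt
    omega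
  · intro n hn
    exact ψ.map_nonunit (by rwa [ZMod.isUnit_iff_coprime])

theorem prim' {L : ℕ} (hL : 1 < L) (ψ : DirichletCharacter ℂ L) (hψ : ψ.IsPrimitive) (N : ℕ) :
    ‖∑ n ∈ Icc 1 N, ψ (n : ZMod L)‖ ≤ Real.sqrt L * (1 + Real.log L) := by
  have h := prim hL ψ hψ (N + 1)
  rwa [Finset.range_eq_Ico, Finset.sum_eq_sum_Ico_succ_bot (Nat.succ_pos N), Nat.cast_zero,
    ψ.map_zero' (by omega), zero_add] at h

theorem sum_mu (n : ℕ) : ∑ d ∈ n.divisors, (ArithmeticFunction.moebius d : ℂ) =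
    if n = 1 then 1 else 0 := by
  have h : ∑ d ∈ n.divisors, ArithmeticFunction.moebius d = if n = 1 then (1 : ℤ) else 0 := by
    rw [← ArithmeticFunction.coe_mul_zeta_apply, ArithmeticFunction.moebius_mul_coe_zeta,
      ArithmeticFunction.one_apply]
  have h2 := congrArg (fun z : ℤ => (z : ℂ)) h
  simpa using h2

theorem sum_mul_dvd (ψ : ℕ → ℂ) (d N : ℕ) (hd : 0 < d) :
    ∑ m ∈ (Icc 1 N).filter (fun m => d ∣ m), ψ m = ∑ k ∈ Icc 1 (N / d), ψ (d * k) := by
  symm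
  refine Finset.sum_nbij' (fun k => d * k) (fun m => m / d) ?_ ?_ ?_ ?_ ?_
  · intro k hk
    rw [mem_Icc] at hk
    rw [mem_filter, mem_Icc]
    refine ⟨⟨Nat.mul_pos hd hk.1, ?_⟩, Dvd.intro _ rfl⟩
    have := (Nat.le_div_iff_mul_le hd).mp hk.2
    rwa [mul_comm] at this
  · intro m hm
    rw [mem_filter, mem_Icc] at hm
    rw [mem_Icc]
    exact ⟨Nat.div_pos (Nat.le_of_dvd hm.1.1 hm.2) hd, Nat.div_le_div_right hm.1.2⟩
  · intro k _
    exact Nat.mul_div_cancel_left k hd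
  · intro m hm
    rw [mem_filter] at hm
    exact Nat.mul_div_cancel' hm.2
  · intro k _
    rfl

theorem imprim {q : ℕ} [NeZero q] {χ : DirichletCharacter ℂ q} (hχ : χ ≠ 1) (N : ℕ) :
    ‖∑ m ∈ Icc 1 N, χ (m : ZMod q)‖ ≤
      q.divisors.card * (Real.sqrt q * (1 + Real.log q)) := by
  have hq0 : q ≠ 0 := NeZero.ne q
  have hf0 : χ.conductor ≠ 0 := χ.conductor_ne_zero
  have hf1 : χ.conductor ≠ 1 := fun h => hχ (DirichletCharacter.eq_one_iff_conductor_eq_one.mpr h)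
  have hf : 1 < χ.conductor := by omega
  have hfq : χ.conductor ≤ q := Nat.le_of_dvd (Nat.pos_of_ne_zero hq0) χ.conductor_dvd_level
  set ψ : ℕ → ℂ := fun n => χ.primitiveCharacter (n : ZMod χ.conductor) with hψ
  have hψmul : ∀ a b : ℕ, ψ (a * b) = ψ a * ψ b := by
    intro a b
    show χ.primitiveCharacter ((a * b : ℕ) : ZMod χ.conductor) = _
    rw [Nat.cast_mul, map_mul]
  have hψ1 : ∀ a : ℕ, ‖ψ a‖ ≤ 1 := fun a => DirichletCharacter.norm_le_one _ _
  have hbd : ∀ M : ℕ, ‖∑ k ∈ Icc 1 M, ψ k‖ ≤ Real.sqrt q * (1 + Real.log q) := by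
    intro M
    refine (prim' hf χ.primitiveCharacter χ.primitiveCharacter_isPrimitive M).trans ?_
    have h1 : (1 : ℝ) ≤ χ.conductor := by exact_mod_cast hf.le
    have h2 : (χ.conductor : ℝ) ≤ q := by exact_mod_cast hfq
    have h3 : 0 ≤ Real.log χ.conductor := Real.log_nonneg h1
    exact mul_le_mul (Real.sqrt_le_sqrt h2)
      (by linarith [Real.log_le_log (by linarith) h2]) (by linarith) (Real.sqrt_nonneg _)
  have hval : ∀ m ∈ Icc 1 N, χ (m : ZMod q) =
      ∑ d ∈ q.divisors, if d ∣ m then (ArithmeticFunction.moebius d : ℂ) * ψ m else 0 := by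
    intro m hm
    rw [mem_Icc] at hm
    have hm0 : m ≠ 0 := by omega
    rw [← sum_filter, ← sum_mul]
    have h1 : q.divisors.filter (fun d => d ∣ m) = (m.gcd q).divisors := by
      ext d
      rw [mem_filter, Nat.mem_divisors, Nat.mem_divisors, Nat.dvd_gcd_iff]
      constructor
      · rintro ⟨⟨h1, _⟩, h2⟩
        exact ⟨⟨h2, h1⟩, Nat.gcd_ne_zero_left hm0⟩
      · rintro ⟨⟨h2, h1⟩, _⟩
        exact ⟨⟨h1, hq0⟩, h2⟩
    rw [h1, sum_mu]
    split_ifs with hg
    · rw [one_mul]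
      have h2 := χ.primitiveCharacter_apply_of_isCoprime (a := (m : ℤ))
        (Nat.isCoprime_iff_coprime.mpr hg)
      rw [Int.cast_natCast, Int.cast_natCast] at h2
      exact h2.symm
    · rw [zero_mul]
      exact χ.map_nonunit (by rwa [ZMod.isUnit_iff_coprime])
  have hsum : ∑ m ∈ Icc 1 N, χ (m : ZMod q) =
      ∑ d ∈ q.divisors, (ArithmeticFunction.moebius d : ℂ) * ψ d * ∑ k ∈ Icc 1 (N / d), ψ k := by
    rw [sum_congr rfl hval, sum_comm]
    refine sum_congr rfl fun d hd => ?_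
    have hd0 : 0 < d := Nat.pos_of_mem_divisors hd
    rw [← sum_filter, sum_mul_dvd _ d N hd0, mul_sum]
    refine sum_congr rfl fun k _ => ?_
    rw [hψmul, mul_assoc]
  rw [hsum]
  refine (norm_sum_le _ _).trans ?_
  calc ∑ d ∈ q.divisors, ‖(ArithmeticFunction.moebius d : ℂ) * ψ d * ∑ k ∈ Icc 1 (N / d), ψ k‖
      ≤ ∑ _d ∈ q.divisors, (Real.sqrt q * (1 + Real.log q)) := by
        refine sum_le_sum fun d _ => ?_
        rw [norm_mul, norm_mul]
        have h1 : ‖(ArithmeticFunction.moebius d : ℂ)‖ ≤ 1 := by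
          rw [Complex.norm_intCast]
          exact_mod_cast ArithmeticFunction.abs_moebius_le_one
        have h2 : ‖(ArithmeticFunction.moebius d : ℂ)‖ * ‖ψ d‖ ≤ 1 :=
          mul_le_one₀ h1 (norm_nonneg _) (hψ1 d)
        calc ‖(ArithmeticFunction.moebius d : ℂ)‖ * ‖ψ d‖ * ‖∑ k ∈ Icc 1 (N / d), ψ k‖
            ≤ 1 * ‖∑ k ∈ Icc 1 (N / d), ψ k‖ := mul_le_mul_of_nonneg_right h2 (norm_nonneg _)
          _ ≤ _ := by rw [one_mul]; exact hbd _
    _ = _ := by rw [sum_const, nsmul_eq_mul]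




end P004E.H147.PV
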